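import Vale.Agent.P150.MathlibUsed

open MeasureTheory ProbabilityTheory Filter Topology

namespace Vale.Agent.P150

/-- Spin configurations: `true` is the spin `+1`, `false` is the spin `-1`. -/
abbrev Cfg (n : ℕ) := Fin n → Bool

/-- The spin value of a Boolean. -/
def sp (b : Bool) : ℝ := if b then 1 else -1

/-- Energy of the Ising system with couplings `J` (only `i < j` used) and external field `b`. -/
noncomputable def energy {n : ℕ} (J : Fin n → Fin n → ℝ) (b : Fin n → ℝ) (x : Cfg n) : ℝ :=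
  (∑ i, ∑ j, if i < j then J i j * sp (x i) * sp (x j) else 0) + ∑ i, b i * sp (x i)

/-- The Gibbs measure (probability weights). -/
noncomputable def gibbs {n : ℕ} (J : Fin n → Fin n → ℝ) (b : Fin n → ℝ) (x : Cfg n) : ℝ :=
  Real.exp (energy J b x) / ∑ y, Real.exp (energy J b y)

/-- The local field at site `i`: `h_i = b_i + ∑_{j ≠ i} J_ij x_j`. -/
noncomputable def locField {n : ℕ} (J : Fin n → Fin n → ℝ) (b : Fin n → ℝ) (x : Cfg n)
    (i : Fin n) : ℝ :=
  b i + ∑ j, if j = i then 0 else J i j * sp (x j)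

/-- Heat-bath resampling of site `i`: the conditional expectation `Q_i f`. -/
noncomputable def resample {n : ℕ} (J : Fin n → Fin n → ℝ) (b : Fin n → ℝ) (i : Fin n)
    (f : Cfg n → ℝ) (x : Cfg n) : ℝ :=
  ∑ s : Bool, Real.exp (sp s * locField J b x i) / (2 * Real.cosh (locField J b x i)) *
    f (Function.update x i s)

/-- The generator of the continuous-time heat-bath dynamics, `L f = ∑ i (Q_i f - f)`. -/
noncomputable def gen {n : ℕ} (J : Fin n → Fin n → ℝ) (b : Fin n → ℝ)
    (f : Cfg n → ℝ) (x : Cfg n) : ℝ :=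
  ∑ i, (resample J b i f x - f x)

/-- The matrix of the generator. -/
noncomputable def genMat {n : ℕ} (J : Fin n → Fin n → ℝ) (b : Fin n → ℝ) :
    Matrix (Cfg n) (Cfg n) ℝ :=
  fun x y => gen J b (fun z => if z = y then 1 else 0) x

/-- The transition kernel `P_t = exp (t L)`. -/
noncomputable def kernel {n : ℕ} (J : Fin n → Fin n → ℝ) (b : Fin n → ℝ) (t : ℝ) :
    Matrix (Cfg n) (Cfg n) ℝ :=
  NormedSpace.exp (t • genMat J b)

/-- Total variation distance between `P_t(x, ·)` and the Gibbs measure. -/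
noncomputable def tvDist {n : ℕ} (J : Fin n → Fin n → ℝ) (b : Fin n → ℝ) (t : ℝ) (x : Cfg n) : ℝ :=
  (1 / 2) * ∑ y, |kernel J b t x y - gibbs J b y|

/-- The mixing time. -/
noncomputable def tmix {n : ℕ} (J : Fin n → Fin n → ℝ) (b : Fin n → ℝ) : ℝ :=
  sInf {t : ℝ | 0 ≤ t ∧ ∀ x, tvDist J b t x ≤ 1 / 4}

/-- Expectation under the Gibbs measure. -/
noncomputable def ex {n : ℕ} (J : Fin n → Fin n → ℝ) (b : Fin n → ℝ) (f : Cfg n → ℝ) : ℝ :=
  ∑ x, gibbs J b x * f x

/-- Variance under the Gibbs measure. -/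
noncomputable def var {n : ℕ} (J : Fin n → Fin n → ℝ) (b : Fin n → ℝ) (f : Cfg n → ℝ) : ℝ :=
  ex J b (fun x => (f x - ex J b f) ^ 2)

/-- The Dirichlet form `E(f, g) = - ⟨f, L g⟩` in `L²` of the Gibbs measure. -/
noncomputable def dir {n : ℕ} (J : Fin n → Fin n → ℝ) (b : Fin n → ℝ) (f g : Cfg n → ℝ) : ℝ :=
  - ex J b (fun x => f x * gen J b g x)

/-- The spectral gap of `-L` on `L²` of the Gibbs measure (Rayleigh quotient characterization). -/
noncomputable def gap {n : ℕ} (J : Fin n → Fin n → ℝ) (b : Fin n → ℝ) : ℝ :=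
  sInf {r : ℝ | ∃ f : Cfg n → ℝ, var J b f ≠ 0 ∧ r = dir J b f f / var J b f}

/-- Index set of the disorder: pairs `i < j`. -/
abbrev Pairs (n : ℕ) := {p : Fin n × Fin n // p.1 < p.2}

/-- The symmetric matrix `g_ij` with zero diagonal built from the disorder. -/
noncomputable def gsym {n : ℕ} (g : Pairs n → ℝ) (i j : Fin n) : ℝ :=
  if h : i < j then g ⟨(i, j), h⟩ else if h : j < i then g ⟨(j, i), h⟩ else 0

/-- Sherrington-Kirkpatrick couplings `J_ij = β / √n * g_ij`. -/
noncomputable def skJ {n : ℕ} (β : ℝ) (g : Pairs n → ℝ) (i j : Fin n) : ℝ :=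
  β / Real.sqrt n * gsym g i j

/-- Law of the disorder: i.i.d. standard Gaussians. -/
noncomputable def disorder (n : ℕ) : Measure (Pairs n → ℝ) :=
  Measure.pi (fun _ => gaussianReal 0 1)

/-- An event `A n` of the disorder holds with probability tending to one:
the (outer) probability of its complement tends to zero. -/
def WHP (A : (n : ℕ) → Set (Pairs n → ℝ)) : Prop :=
  Tendsto (fun n => disorder n (A n)ᶜ) atTop (𝓝 0)

end Vale.Agent.P150
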