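import Mathlib.Algebra.Order.Archimedean.Real.Hom
import Mathlib.Algebra.Ring.IsFormallyReal
import Mathlib.Analysis.Calculus.Deriv.Star
import Mathlib.Analysis.Complex.ExponentialBounds
import Mathlib.Analysis.Normed.Algebra.MatrixExponential
import Mathlib.CategoryTheory.Countable
import Mathlib.Combinatorics.SimpleGraph.AdjMatrix
import Mathlib.Geometry.Manifold.Algebra.SMul
import Mathlib.Order.CompletePartialOrder
import Mathlib.Probability.Distributions.Gaussian.Fernique
import Mathlib.RingTheory.Etale.Weakly
import Mathlib.RingTheory.Flat.TorsionFree
import Mathlib.RingTheory.SimpleRing.Principal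
import Mathlib.RingTheory.TotallySplit
import Mathlib.Tactic
import Mathlib.Topology.UniformSpace.Uniformizable

/-! The part of Mathlib that the development of this folder uses. -/
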